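import Vale.Agent.Lib.P210R.Stmt
import Vale.Agent.Lib.P225R.Ricc

/-!
# P210R M1: scalar curvature of `F(|x|²) |dx|²`

Copy the private lemmas of `P225R/Ricc.lean` up to `ric_eq`, then take the trace:
`(conf F x)⁻¹ = (F (sq x))⁻¹ • 1`.
-/

namespace Vale.Agent.P225

open Set MeasureTheory Filter Vale.Agent.P222
open scoped Topology ContDiff ENNReal

section scal_conf_aux

variable {n : ℕ} {F : ℝ → ℝ}

private noncomputable def dl (i j : Fin n) : ℝ := if i = j then 1 else 0

private theorem dl_self (i : Fin n) : dl i i = 1 := if_pos rfl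

private theorem dl_comm (i j : Fin n) : dl i j = dl j i := by
  unfold dl
  simp only [eq_comm]

private theorem sum_dl (f : Fin n → ℝ) (i : Fin n) : ∑ k, dl k i * f k = f i := by
  rw [Finset.sum_eq_single i]
  · rw [dl_self, one_mul]
  · intro k _ hk
    rw [dl, if_neg hk, zero_mul]
  · intro h
    exact absurd (Finset.mem_univ i) h

private theorem sum_dl' (f : Fin n → ℝ) (i : Fin n) : ∑ k, dl i k * f k = f i := by
  simp only [dl_comm i]
  exact sum_dl f i

private theorem proj_single (j m : Fin n) :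
    (ContinuousLinearMap.proj (R := ℝ) (φ := fun _ : Fin n => ℝ) j) (Pi.single m (1 : ℝ)) =
      dl j m := by
  unfold dl
  rw [ContinuousLinearMap.proj_apply, Pi.single_apply]

private theorem hasF_proj (j : Fin n) (x : Fin n → ℝ) :
    HasFDerivAt (fun y : Fin n → ℝ => y j)
      (ContinuousLinearMap.proj (R := ℝ) (φ := fun _ : Fin n => ℝ) j) x :=
  (ContinuousLinearMap.proj (R := ℝ) (φ := fun _ : Fin n => ℝ) j).hasFDerivAt

private theorem hasF_sq (x : Fin n → ℝ) :
    HasFDerivAt (fun y : Fin n → ℝ => sq y)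
      (∑ i, (x i • ContinuousLinearMap.proj (R := ℝ) (φ := fun _ : Fin n => ℝ) i +
        x i • ContinuousLinearMap.proj (R := ℝ) (φ := fun _ : Fin n => ℝ) i)) x := by
  have h1 : (fun y : Fin n → ℝ => sq y) = fun y => ∑ i, y i * y i := by
    funext y
    unfold sq
    exact Finset.sum_congr rfl fun i _ => pow_two _
  rw [h1]
  exact HasFDerivAt.fun_sum fun i _ => (hasF_proj i x).mul (hasF_proj i x)

private theorem hasF_comp {G : ℝ → ℝ} (hG : ContDiff ℝ ∞ G) (x : Fin n → ℝ) :
    HasFDerivAt (fun y : Fin n → ℝ => G (sq y))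
      (deriv G (sq x) • ∑ i, (x i • ContinuousLinearMap.proj (R := ℝ) (φ := fun _ : Fin n => ℝ) i +
        x i • ContinuousLinearMap.proj (R := ℝ) (φ := fun _ : Fin n => ℝ) i)) x := by
  have h1 : HasDerivAt G (deriv G (sq x)) (sq x) :=
    (hG.differentiable (by simp) (sq x)).hasDerivAt
  exact h1.comp_hasFDerivAt x (hasF_sq x)

private theorem sum_single (x : Fin n → ℝ) (m : Fin n) :
    (∑ i, (x i • ContinuousLinearMap.proj (R := ℝ) (φ := fun _ : Fin n => ℝ) i +
        x i • ContinuousLinearMap.proj (R := ℝ) (φ := fun _ : Fin n => ℝ) i)) (Pi.single m (1 : ℝ)) =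
      2 * x m := by
  rw [ContinuousLinearMap.sum_apply]
  have h1 : ∀ i, (x i • ContinuousLinearMap.proj (R := ℝ) (φ := fun _ : Fin n => ℝ) i +
      x i • ContinuousLinearMap.proj (R := ℝ) (φ := fun _ : Fin n => ℝ) i) (Pi.single m (1 : ℝ)) =
        dl i m * (2 * x i) := by
    intro i
    rw [ContinuousLinearMap.add_apply, ContinuousLinearMap.smul_apply, proj_single, smul_eq_mul]
    ring
  simp only [h1]
  exact sum_dl (fun i => 2 * x i) m

private theorem pder_comp {G : ℝ → ℝ} (hG : ContDiff ℝ ∞ G) (m : Fin n) (x : Fin n → ℝ) :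
    pder m (fun y : Fin n → ℝ => G (sq y)) x = 2 * x m * deriv G (sq x) := by
  unfold pder
  rw [(hasF_comp hG x).fderiv, ContinuousLinearMap.smul_apply, sum_single, smul_eq_mul]
  ring

private theorem pder_conf (hF : ContDiff ℝ ∞ F) (i j l : Fin n) (x : Fin n → ℝ) :
    pder i (fun y => conf F y j l) x = dl j l * (2 * x i * deriv F (sq x)) := by
  have h1 : (fun y : Fin n → ℝ => conf F y j l) = fun y => dl j l * F (sq y) := by
    funext y
    unfold conf dl sq
    rw [Matrix.smul_apply, Matrix.one_apply, smul_eq_mul, mul_comm]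
  have h2 : HasFDerivAt (fun y : Fin n → ℝ => dl j l * F (sq y)) _ x :=
    (hasF_comp hF x).const_mul (dl j l)
  rw [h1]
  unfold pder
  rw [h2.fderiv, ContinuousLinearMap.smul_apply, ContinuousLinearMap.smul_apply, sum_single,
    smul_eq_mul, smul_eq_mul]
  ring

private noncomputable def TT (k i j : Fin n) (x : Fin n → ℝ) : ℝ :=
  dl k i * x j + dl k j * x i - dl i j * x k

private theorem TT_eq (k i j : Fin n) (x : Fin n → ℝ) :
    ((if k = i then x j else 0) + (if k = j then x i else 0) - (if i = j then x k else 0)) =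
      TT k i j x := by
  unfold TT dl
  simp only [ite_mul, one_mul, zero_mul]

private theorem smooth_a (hF : ContDiff ℝ ∞ F) (hpos : ∀ s, 0 < F s) :
    ContDiff ℝ ∞ fun s => deriv F s / F s := by
  have h1 : ContDiff ℝ ∞ (deriv F) := (contDiff_infty_iff_deriv.1 hF).2
  exact h1.div hF fun s => (hpos s).ne'

private theorem pder_chris (hF : ContDiff ℝ ∞ F) (hpos : ∀ s, 0 < F s) (m k i j : Fin n)
    (x : Fin n → ℝ) :
    pder m (chris (conf F) k i j) x =
      (dl k i * dl j m + dl k j * dl i m - dl i j * dl k m) * (deriv F (sq x) / F (sq x)) +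
        TT k i j x * (2 * x m * deriv (fun s => deriv F s / F s) (sq x)) := by
  have h1 : chris (conf F) k i j = fun y => TT k i j y * (deriv F (sq y) / F (sq y)) := by
    funext y
    rw [chris_conf hF hpos, TT_eq]
  have h2 := hasF_comp (smooth_a hF hpos) x
  have h3 : HasFDerivAt (fun y : Fin n → ℝ => TT k i j y)
      (dl k i • ContinuousLinearMap.proj (R := ℝ) (φ := fun _ : Fin n => ℝ) j +
        dl k j • ContinuousLinearMap.proj (R := ℝ) (φ := fun _ : Fin n => ℝ) i -
        dl i j • ContinuousLinearMap.proj (R := ℝ) (φ := fun _ : Fin n => ℝ) k) x :=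
    (((hasF_proj j x).const_mul (dl k i)).add ((hasF_proj i x).const_mul (dl k j))).sub
      ((hasF_proj k x).const_mul (dl i j))
  have h4 : HasFDerivAt (fun y : Fin n → ℝ => TT k i j y * (deriv F (sq y) / F (sq y))) _ x :=
    h3.mul h2
  rw [h1]
  unfold pder
  rw [h4.fderiv]
  simp only [ContinuousLinearMap.add_apply, ContinuousLinearMap.smul_apply,
    ContinuousLinearMap.sub_apply, proj_single, sum_single, smul_eq_mul]
  ring

private theorem s1 (x : Fin n → ℝ) : ∑ k, x k * x k = sq x := by
  unfold sq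
  exact Finset.sum_congr rfl fun i _ => (pow_two _).symm

private theorem card_sum (c : ℝ) : ∑ _k : Fin n, c = n * c := by
  rw [Finset.sum_const, Finset.card_univ, Fintype.card_fin, nsmul_eq_mul]

private theorem TT_kik (k i : Fin n) (x : Fin n → ℝ) : TT k i k x = x i := by
  unfold TT
  rw [dl_self, dl_comm k i]
  ring

private theorem TT_kkl (k l : Fin n) (x : Fin n → ℝ) : TT k k l x = x l := by
  unfold TT
  rw [dl_self]
  ring

private theorem sum_x_TT (i j : Fin n) (x : Fin n → ℝ) :
    ∑ k, x k * TT k i j x = 2 * x i * x j - dl i j * sq x := by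
  have h1 : ∀ k, x k * TT k i j x = dl k i * (x k * x j) + dl k j * (x k * x i) -
      dl i j * (x k * x k) := fun k => by
    unfold TT
    ring
  simp only [h1]
  rw [Finset.sum_sub_distrib, Finset.sum_add_distrib, sum_dl (fun k => x k * x j),
    sum_dl (fun k => x k * x i), ← Finset.mul_sum, s1]
  ring

private theorem sum_TT_TT (i j : Fin n) (x : Fin n → ℝ) :
    ∑ k, ∑ l, TT k j l x * TT l i k x = (n + 2) * (x i * x j) - 2 * dl i j * sq x := by
  have h1 : ∀ k, ∑ l, TT k j l x * TT l i k x =
      dl k j * (2 * x i * x k - dl i k * sq x) + x i * x j - x k * TT j i k x := by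
    intro k
    have h2 : ∀ l, TT k j l x * TT l i k x = dl k j * (x l * TT l i k x) +
        dl k l * (x j * TT l i k x) - dl j l * (x k * TT l i k x) := fun l => by
      rw [show TT k j l x = dl k j * x l + dl k l * x j - dl j l * x k from rfl]
      ring
    simp only [h2]
    rw [Finset.sum_sub_distrib, Finset.sum_add_distrib, ← Finset.mul_sum, sum_x_TT,
      sum_dl' (fun l => x j * TT l i k x), sum_dl' (fun l => x k * TT l i k x), TT_kik]
    ring
  simp only [h1]
  have h3 : ∀ k, x k * TT j i k x = dl j i * (x k * x k) + dl k j * (x k * x i) -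
      dl k i * (x k * x j) := fun k => by
    unfold TT
    rw [dl_comm j k, dl_comm i k]
    ring
  have h4 : ∀ k, dl k j * (2 * x i * x k - dl i k * sq x) + x i * x j - x k * TT j i k x =
      dl k j * (2 * x i * x k - dl i k * sq x) + x i * x j - (dl j i * (x k * x k) +
        dl k j * (x k * x i) - dl k i * (x k * x j)) := fun k => by rw [h3]
  simp only [h4]
  rw [Finset.sum_sub_distrib, Finset.sum_add_distrib, Finset.sum_sub_distrib,
    Finset.sum_add_distrib, card_sum, sum_dl (fun k => 2 * x i * x k - dl i k * sq x),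
    sum_dl (fun k => x k * x i), sum_dl (fun k => x k * x j), ← Finset.mul_sum, s1, dl_comm j i]
  ring

private theorem ric_eq (hF : ContDiff ℝ ∞ F) (hpos : ∀ s, 0 < F s) (i j : Fin n)
    (x : Fin n → ℝ) :
    ric (conf F) x i j =
      dl i j * ((2 - 2 * n) * (deriv F (sq x) / F (sq x)) -
        2 * sq x * deriv (fun s => deriv F s / F s) (sq x) -
        (n - 2) * sq x * (deriv F (sq x) / F (sq x)) ^ 2) +
      x i * x j * (-(2 * n - 4) * deriv (fun s => deriv F s / F s) (sq x) +
        (n - 2) * (deriv F (sq x) / F (sq x)) ^ 2) := by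
  set a := deriv F (sq x) / F (sq x) with ha
  set a' := deriv (fun s => deriv F s / F s) (sq x) with ha'
  have hc : ∀ k i j, chris (conf F) k i j x = TT k i j x * a := fun k i j => by
    rw [chris_conf hF hpos, TT_eq]
  have e1 : ∑ k, pder k (chris (conf F) k i j) x =
      (2 - n) * dl i j * a + 2 * a' * (2 * x i * x j - dl i j * sq x) := by
    have h1 : ∀ k, pder k (chris (conf F) k i j) x =
        a * (dl k i * dl j k) + a * (dl k j * dl i k) - dl i j * a + 2 * a' * (x k * TT k i j x) :=
      fun k => by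
        rw [pder_chris hF hpos, dl_self]
        ring
    simp only [h1]
    rw [Finset.sum_add_distrib, Finset.sum_sub_distrib, Finset.sum_add_distrib, ← Finset.mul_sum,
      ← Finset.mul_sum, ← Finset.mul_sum, ← Finset.mul_sum, sum_x_TT, card_sum, sum_dl (fun k => dl j k),
      sum_dl (fun k => dl i k), dl_comm j i]
    ring
  have e2 : ∑ k, pder j (chris (conf F) k i k) x = n * (dl i j * a + 2 * x i * x j * a') := by
    have h1 : ∀ k, pder j (chris (conf F) k i k) x = dl i j * a + 2 * x i * x j * a' := fun k => by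
      rw [pder_chris hF hpos, TT_kik, dl_self, dl_comm k i]
      ring
    simp only [h1]
    exact card_sum _
  have e3 : ∑ k, ∑ l, chris (conf F) k k l x * chris (conf F) l i j x =
      n * (a ^ 2 * (2 * x i * x j - dl i j * sq x)) := by
    have h1 : ∀ k l, chris (conf F) k k l x * chris (conf F) l i j x =
        a ^ 2 * (x l * TT l i j x) := fun k l => by
      rw [hc, hc, TT_kkl]
      ring
    simp only [h1]
    rw [card_sum, ← Finset.mul_sum, sum_x_TT]
  have e4 : ∑ k, ∑ l, chris (conf F) k j l x * chris (conf F) l i k x =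
      a ^ 2 * ((n + 2) * (x i * x j) - 2 * dl i j * sq x) := by
    have h1 : ∀ k l, chris (conf F) k j l x * chris (conf F) l i k x =
        a ^ 2 * (TT k j l x * TT l i k x) := fun k l => by
      rw [hc, hc]
      ring
    simp only [h1, ← Finset.mul_sum]
    rw [sum_TT_TT]
  unfold ric
  rw [Matrix.of_apply]
  simp only [Finset.sum_sub_distrib, Finset.sum_add_distrib]
  rw [e1, e2, e3, e4]
  ring

private theorem inv_conf {n : ℕ} {F : ℝ → ℝ} (hpos : ∀ s, 0 < F s) (x : Fin n → ℝ)
    (i j : Fin n) : (conf F x)⁻¹ i j = dl i j * (F (sq x))⁻¹ := by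
  have hs : F (sq x) ≠ 0 := (hpos _).ne'
  have hinv : (conf F x)⁻¹ = (F (sq x))⁻¹ • (1 : Matrix (Fin n) (Fin n) ℝ) := by
    apply Matrix.inv_eq_right_inv
    change F (sq x) • (1 : Matrix (Fin n) (Fin n) ℝ) * ((F (sq x))⁻¹ • 1) = 1
    rw [Matrix.smul_mul, Matrix.mul_smul, mul_one, smul_smul, mul_inv_cancel₀ hs, one_smul]
  rw [hinv, Matrix.smul_apply, Matrix.one_apply, smul_eq_mul, mul_comm]
  rfl

end scal_conf_aux

theorem scal_conf {n : ℕ} {F : ℝ → ℝ} (hF : ContDiff ℝ ∞ F) (hpos : ∀ s, 0 < F s)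
    (x : Fin n → ℝ) :
    scal (conf F) x * F (sq x) = -((n : ℝ) - 1) * (2 * n * (deriv F (sq x) / F (sq x)) +
      4 * sq x * deriv (fun s => deriv F s / F s) (sq x) +
      (n - 2) * sq x * (deriv F (sq x) / F (sq x)) ^ 2) := by
  have hs : F (sq x) ≠ 0 := (hpos _).ne'
  unfold scal
  simp only [inv_conf hpos, ric_eq hF hpos]
  set a := deriv F (sq x) / F (sq x)
  set a' := deriv (fun s => deriv F s / F s) (sq x)
  set P := (2 - 2 * (n : ℝ)) * a - 2 * sq x * a' - (n - 2) * sq x * a ^ 2 with hP
  set Q := -(2 * (n : ℝ) - 4) * a' + (n - 2) * a ^ 2 with hQ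
  have h1 : ∀ i, ∑ j, dl i j * (F (sq x))⁻¹ * (dl i j * P + x i * x j * Q) =
      (F (sq x))⁻¹ * (P + Q * (x i * x i)) := by
    intro i
    have h2 : ∀ j, dl i j * (F (sq x))⁻¹ * (dl i j * P + x i * x j * Q) =
        dl i j * ((F (sq x))⁻¹ * (dl i j * P + x i * x j * Q)) := fun j => by ring
    simp only [h2]
    rw [sum_dl' (fun j => (F (sq x))⁻¹ * (dl i j * P + x i * x j * Q)), dl_self]
    ring
  simp only [h1]
  rw [← Finset.mul_sum, Finset.sum_add_distrib, ← Finset.mul_sum, s1, card_sum, mul_comm,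
    ← mul_assoc, mul_inv_cancel₀ hs, one_mul, hP, hQ]
  ring

end Vale.Agent.P225
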