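import Mathlib

/-!
# P210R M2: the differential inequality
-/

namespace Vale.Agent.P225

open Set Filter
open scoped Topology ContDiff

/-- the abstract differential inequality: `w' = F p`, `w = s F` and a lower bound for the scalar
curvature -/
private theorem ode_abs {k : ℕ} (hk : 1 ≤ k) {F p p' : ℝ → ℝ} (hpos : ∀ s, 0 < F s)
    (hFc : Continuous F) (hp : ∀ s, HasDerivAt p (p' s) s)
    (hw : ∀ s, HasDerivAt (fun s => s * F s) (F s * p s) s)
    (h : ∀ s, 0 ≤ s → s * F s ≤ ((k : ℝ) + 1) * (k * (1 - p s ^ 2) - 4 * s * p' s)) :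
    ∀ s, 0 ≤ s → s * F s ≤ ((k : ℝ) + 2) * (k + 1) := by
  have hk1 : (1 : ℝ) ≤ k := by exact_mod_cast hk
  set N : ℝ := ((k : ℝ) + 2) * (k + 1) with hN
  have hN0 : 0 < N := by positivity
  have hpc : Continuous p := continuous_iff_continuousAt.2 fun s => (hp s).continuousAt
  have hwc : Continuous fun s => s * F s := continuous_id.mul hFc
  by_contra hcon
  push Not at hcon
  obtain ⟨s₂, hs₂, hs₂N⟩ := hcon
  set A : Set ℝ := {s | 0 ≤ s ∧ N < s * F s} with hA
  have hAne : A.Nonempty := ⟨s₂, hs₂, hs₂N⟩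
  have hAbd : BddBelow A := ⟨0, fun s hs => hs.1⟩
  set r : ℝ := sInf A with hr
  have hr0 : 0 ≤ r := le_csInf hAne fun s hs => hs.1
  have hbefore : ∀ s, 0 ≤ s → s < r → s * F s ≤ N := by
    intro s hs hsr
    by_contra hc
    push Not at hc
    exact absurd (csInf_le hAbd ⟨hs, hc⟩) (not_le.2 hsr)
  have hnear : ∀ e, r < e → ∃ s, r ≤ s ∧ s < e ∧ N < s * F s := by
    intro e he
    obtain ⟨s, hsA, hse⟩ := exists_lt_of_csInf_lt hAne he
    exact ⟨s, csInf_le hAbd hsA, hse, hsA.2⟩
  have hrge : N ≤ r * F r := by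
    by_contra hc
    push Not at hc
    have h1 : ∀ᶠ s in 𝓝 r, s * F s < N := hwc.continuousAt.eventually_lt_const hc
    obtain ⟨e, he, h2⟩ := Metric.eventually_nhds_iff.1 h1
    obtain ⟨s, hs1, hs2, hs3⟩ := hnear (r + e) (by linarith)
    have h3 := h2 (y := s) (by
      rw [Real.dist_eq, abs_lt]; constructor <;> linarith)
    linarith
  have hrpos : 0 < r := by
    rcases hr0.lt_or_eq with h1 | h1
    · exact h1
    · exfalso
      rw [← h1, zero_mul] at hrge
      linarith
  have hrle : r * F r ≤ N := by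
    by_contra hc
    push Not at hc
    have h1 : ∀ᶠ s in 𝓝 r, N < s * F s := hwc.continuousAt.eventually_const_lt hc
    obtain ⟨e, he, h2⟩ := Metric.eventually_nhds_iff.1 h1
    set s := max 0 (r - e / 2) with hs
    have hs0 : 0 ≤ s := le_max_left _ _
    have hsr : s < r := max_lt hrpos (by linarith)
    have hse : r - e / 2 ≤ s := le_max_right _ _
    have h3 := h2 (y := s) (by
      rw [Real.dist_eq, abs_lt]; constructor <;> linarith)
    linarith [hbefore s hs0 hsr]
  have hrN : r * F r = N := le_antisymm hrle hrge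
  have hle : ∀ s, 0 ≤ s → s ≤ r → s * F s ≤ N := by
    intro s hs hsr
    rcases hsr.lt_or_eq with h1 | h1
    · exact hbefore s hs h1
    · rw [h1]; exact hrle
  -- the slope at `r` is positive
  have hpr : 0 < p r := by
    by_contra hc
    push Not at hc
    have h1 := h r hrpos.le
    rw [hrN] at h1
    have h2 : p' r < 0 := by
      by_contra hc2
      push Not at hc2
      have h3 : 0 ≤ r * p' r := mul_nonneg hrpos.le hc2
      have h4 : (k : ℝ) * (1 - p r ^ 2) - 4 * r * p' r ≤ k := by nlinarith [sq_nonneg (p r)]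
      have h5 : N ≤ ((k : ℝ) + 1) * k :=
        h1.trans (mul_le_mul_of_nonneg_left h4 (by positivity))
      rw [hN] at h5
      nlinarith
    have h3 : ∀ᶠ s in 𝓝[≠] r, slope p r s < 0 :=
      (hasDerivAt_iff_tendsto_slope.1 (hp r)).eventually_lt_const h2
    rw [eventually_nhdsWithin_iff] at h3
    obtain ⟨e, he, h4⟩ := Metric.eventually_nhds_iff.1 h3
    have h5 : ∀ s, r < s → s < r + e → p s < 0 := by
      intro s hs1 hs2
      have h6 := h4 (y := s) (by rw [Real.dist_eq, abs_lt]; constructor <;> linarith) hs1.ne'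
      rw [slope_def_field] at h6
      have h7 : 0 < s - r := by linarith
      have h8 : p s - p r < 0 := by
        by_contra hcc
        push Not at hcc
        exact absurd (div_nonneg hcc h7.le) (not_le.2 h6)
      linarith
    obtain ⟨s, hs1, hs2, hs3⟩ := hnear (r + e) (by linarith)
    have hanti : AntitoneOn (fun s => s * F s) (Icc r s) := by
      refine antitoneOn_of_deriv_nonpos (convex_Icc r s) hwc.continuousOn
        (fun x _ => (hw x).differentiableAt.differentiableWithinAt) fun x hx => ?_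
      rw [interior_Icc] at hx
      rw [(hw x).deriv]
      have h6 := h5 x hx.1 (by linarith [hx.2])
      exact (mul_neg_of_pos_of_neg (hpos x) h6).le
    have h6 := hanti (left_mem_Icc.2 hs1) (right_mem_Icc.2 hs1) hs1
    simp only at h6
    linarith
  -- the last zero of `p` before `r`
  set Z : Set ℝ := {s | s ∈ Icc 0 r ∧ (s = 0 ∨ p s ≤ 0)} with hZ
  have hZ0 : (0 : ℝ) ∈ Z := ⟨left_mem_Icc.2 hr0, Or.inl rfl⟩
  have hZbd : BddAbove Z := ⟨r, fun s hs => hs.1.2⟩
  have hZcl : IsClosed Z := by
    have h1 : Z = Icc 0 r ∩ ({0} ∪ {s | p s ≤ 0}) := by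
      ext s
      simp [hZ]
    rw [h1]
    exact isClosed_Icc.inter (isClosed_singleton.union (isClosed_le hpc continuous_const))
  set r₁ : ℝ := sSup Z with hr₁
  have hr₁Z : r₁ ∈ Z := hZcl.csSup_mem ⟨0, hZ0⟩ hZbd
  have hr₁0 : 0 ≤ r₁ := hr₁Z.1.1
  have hr₁r : r₁ < r := by
    rcases hr₁Z.1.2.lt_or_eq with h1 | h1
    · exact h1
    · exfalso
      rcases hr₁Z.2 with h2 | h2
      · linarith
      · rw [h1] at h2; linarith
  have hafter : ∀ s, r₁ < s → s ≤ r → 0 < p s := by
    intro s hs1 hs2
    by_contra hc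
    push Not at hc
    have h1 : s ∈ Z := ⟨⟨by linarith, hs2⟩, Or.inr hc⟩
    exact absurd (le_csSup hZbd h1) (not_le.2 hs1)
  set G : ℝ → ℝ := fun s => √(s * F s) ^ k * (1 - p s ^ 2 - s * F s / N) with hG
  have hGc : Continuous G := by
    have h1 : Continuous fun s => √(s * F s) := hwc.sqrt
    exact (h1.pow k).mul ((continuous_const.sub (hpc.pow 2)).sub (hwc.div_const N))
  have hGd : ∀ s, 0 < s → HasDerivAt G
      ((k : ℝ) * √(s * F s) ^ (k - 1) * (F s * p s / (2 * √(s * F s))) *
        (1 - p s ^ 2 - s * F s / N) +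
        √(s * F s) ^ k * (-(2 * p s * p' s) - F s * p s / N)) s := by
    intro s hs
    have hws : 0 < s * F s := mul_pos hs (hpos s)
    have h1 : HasDerivAt (fun s => √(s * F s)) (F s * p s / (2 * √(s * F s))) s :=
      (hw s).sqrt hws.ne'
    have h2 := h1.fun_pow k
    have h3 : HasDerivAt (fun s => 1 - p s ^ 2 - s * F s / N)
        (-(2 * p s * p' s) - F s * p s / N) s := by
      have h4 := (((hp s).fun_pow 2).const_sub 1).sub ((hw s).div_const N)
      refine h4.congr_deriv ?_
      push_cast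
      ring
    exact h2.mul h3
  have hmono : MonotoneOn G (Icc r₁ r) := by
    refine monotoneOn_of_deriv_nonneg (convex_Icc r₁ r) hGc.continuousOn (fun x hx => ?_)
      fun x hx => ?_
    · rw [interior_Icc] at hx
      exact (hGd x (by linarith [hx.1])).differentiableAt.differentiableWithinAt
    · rw [interior_Icc] at hx
      have hx0 : 0 < x := by linarith [hx.1]
      rw [(hGd x hx0).deriv]
      have hpx := hafter x hx.1 hx.2.le
      have hFx := hpos x
      have hwx : 0 < x * F x := mul_pos hx0 hFx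
      set φ : ℝ := √(x * F x) with hφ
      have hφ0 : 0 < φ := Real.sqrt_pos.2 hwx
      have hφ2 : φ * φ = x * F x := Real.mul_self_sqrt hwx.le
      have hφk : φ ^ k = φ ^ (k - 1) * φ := by
        rw [← pow_succ]; congr 1; omega
      have hx' := h x hx0.le
      have hQ : 0 ≤ (k : ℝ) * (1 - p x ^ 2) - 4 * x * p' x - x * F x / (k + 1) := by
        have h6 : x * F x / ((k : ℝ) + 1) ≤ k * (1 - p x ^ 2) - 4 * x * p' x := by
          rw [div_le_iff₀ (by positivity)]
          linarith
        linarith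
      have hEq : (k : ℝ) * φ ^ (k - 1) * (F x * p x / (2 * φ)) * (1 - p x ^ 2 - x * F x / N) +
          φ ^ k * (-(2 * p x * p' x) - F x * p x / N) =
          φ ^ (k - 1) * p x * F x / (2 * φ) *
            ((k : ℝ) * (1 - p x ^ 2) - 4 * x * p' x - x * F x / (k + 1)) := by
        rw [hφk]
        have h7 : φ ^ (k - 1) * φ * (-(2 * p x * p' x) - F x * p x / N) =
            φ ^ (k - 1) / (2 * φ) * (2 * (φ * φ) * (-(2 * p x * p' x) - F x * p x / N)) := by
          field_simp
        rw [h7, hφ2, hN]
        field_simp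
        ring
      rw [hEq]
      refine mul_nonneg ?_ hQ
      positivity
  have hG1 : 0 ≤ G r₁ := by
    rcases hr₁Z.2 with h1 | h1
    · simp only [hG]
      rw [h1, zero_mul, Real.sqrt_zero, zero_pow (by omega), zero_mul]
    · have h2 : p r₁ = 0 := by
        refine le_antisymm h1 ?_
        by_contra hc
        push Not at hc
        have h3 : ∀ᶠ s in 𝓝 r₁, p s < 0 := hpc.continuousAt.eventually_lt_const hc
        obtain ⟨e, he, h4⟩ := Metric.eventually_nhds_iff.1 h3
        set s := min r (r₁ + e / 2) with hs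
        have hs1 : r₁ < s := lt_min hr₁r (by linarith)
        have hs2 : s ≤ r₁ + e / 2 := min_le_right _ _
        have h5 := h4 (y := s) (by
          rw [Real.dist_eq, abs_lt]; constructor <;> linarith)
        linarith [hafter s hs1 (min_le_left _ _)]
      simp only [hG]
      rw [h2]
      have h3 : r₁ * F r₁ / N ≤ 1 := by
        rw [div_le_one hN0]
        exact hle r₁ hr₁0 hr₁r.le
      have h4 : 0 ≤ √(r₁ * F r₁) ^ k := by positivity
      refine mul_nonneg h4 ?_
      linarith
  have hGr : G r < 0 := by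
    simp only [hG]
    rw [hrN, div_self hN0.ne']
    have h1 : 0 < √N ^ k := by positivity
    have h2 : 0 < p r ^ 2 := by positivity
    have h3 : 0 < √N ^ k * p r ^ 2 := mul_pos h1 h2
    linarith
  have h1 := hmono (left_mem_Icc.2 hr₁r.le) (right_mem_Icc.2 hr₁r.le) hr₁r.le
  linarith

theorem ode210 {n : ℕ} (hn : 3 ≤ n) {F : ℝ → ℝ} (hF : ContDiff ℝ ∞ F) (hpos : ∀ s, 0 < F s)
    (h : ∀ s, 0 ≤ s → F s ≤ -((n : ℝ) - 1) * (2 * n * (deriv F s / F s) +
      4 * s * deriv (fun s => deriv F s / F s) s + (n - 2) * s * (deriv F s / F s) ^ 2)) :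
    ∀ s, 0 ≤ s → s * F s ≤ n * (n - 1) := by
  obtain ⟨k, rfl⟩ : ∃ k, n = k + 2 := ⟨n - 2, by omega⟩
  have hFd : ∀ s, HasDerivAt F (deriv F s) s := fun s =>
    (hF.differentiable (by simp) s).hasDerivAt
  have had : ∀ s, HasDerivAt (fun s => deriv F s / F s)
      (deriv (fun s => deriv F s / F s) s) s := by
    intro s
    have h1 : ContDiff ℝ ∞ (deriv F) := (contDiff_infty_iff_deriv.1 hF).2
    have h2 : ContDiff ℝ ∞ fun s => deriv F s / F s := h1.div hF fun s => (hpos s).ne'
    exact (h2.differentiable (by simp) s).hasDerivAt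
  have hmain := ode_abs (k := k) (by omega) (F := F)
    (p := fun s => 1 + s * (deriv F s / F s))
    (p' := fun s => deriv F s / F s + s * deriv (fun s => deriv F s / F s) s) hpos
    hF.continuous (fun s => by
      have h1 := ((hasDerivAt_id s).mul (had s)).const_add 1
      have h2 : HasDerivAt (fun s => 1 + s * (deriv F s / F s))
        (1 * (deriv F s / F s) + s * deriv (fun s => deriv F s / F s) s) s := h1
      rw [one_mul] at h2
      exact h2) (fun s => by
      have h1 : HasDerivAt (fun s => s * F s) (1 * F s + s * deriv F s) s :=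
        (hasDerivAt_id s).mul (hFd s)
      refine h1.congr_deriv ?_
      have := (hpos s).ne'
      field_simp) (fun s hs => by
      have h1 := h s hs
      have h2 := mul_le_mul_of_nonneg_left h1 hs
      refine h2.trans (le_of_eq ?_)
      push_cast
      ring)
  intro s hs
  refine (hmain s hs).trans (le_of_eq ?_)
  push_cast
  ring

end Vale.Agent.P225
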