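import Vale.Agent.Lib.P225R.Defs

/-!
# P210R M3: points of the sphere `|x|² = s` are joined by arcs of length at most `π √(s F(s))`
-/

namespace Vale.Agent.P225

open Set MeasureTheory Filter Vale.Agent.P222
open scoped Topology ContDiff ENNReal

private theorem M3_perp {n : ℕ} (hn : 2 ≤ n) (x : Fin n → ℝ) (hx : 0 < sq x) :
    ∃ v : Fin n → ℝ, dotProduct x v = 0 ∧ sq v = sq x := by
  classical
  have h1 : ∃ u : Fin n → ℝ, dotProduct x u = 0 ∧ 0 < sq u := by
    set i : Fin n := ⟨0, by omega⟩ with hi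
    set j : Fin n := ⟨1, by omega⟩ with hj
    have hij : i ≠ j := by
      intro h
      have := congrArg Fin.val h
      simp [hi, hj] at this
    by_cases h0 : x i = 0 ∧ x j = 0
    · refine ⟨Pi.single i 1, ?_, ?_⟩
      · rw [dotProduct_single, h0.1, zero_mul]
      · unfold sq
        rw [Finset.sum_eq_single i]
        · rw [Pi.single_eq_same]; norm_num
        · intro k _ hk
          rw [Pi.single_eq_of_ne hk]; norm_num
        · intro h; exact absurd (Finset.mem_univ _) h
    · refine ⟨Pi.single i (-(x j)) + Pi.single j (x i), ?_, ?_⟩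
      · rw [dotProduct_add, dotProduct_single, dotProduct_single]; ring
      · have h2 : (Pi.single i (-(x j)) + Pi.single j (x i) : Fin n → ℝ) i = -(x j) := by
          rw [Pi.add_apply, Pi.single_eq_same, Pi.single_eq_of_ne hij, add_zero]
        have h3 : (Pi.single i (-(x j)) + Pi.single j (x i) : Fin n → ℝ) j = x i := by
          rw [Pi.add_apply, Pi.single_eq_same, Pi.single_eq_of_ne hij.symm, zero_add]
        unfold sq
        rcases not_and_or.1 h0 with h | h
        · refine Finset.sum_pos' (fun k _ => sq_nonneg _) ⟨j, Finset.mem_univ _, ?_⟩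
          rw [h3]; positivity
        · refine Finset.sum_pos' (fun k _ => sq_nonneg _) ⟨i, Finset.mem_univ _, ?_⟩
          rw [h2, neg_sq]; positivity
  obtain ⟨u, hu1, hu2⟩ := h1
  refine ⟨√(sq x / sq u) • u, ?_, ?_⟩
  · rw [dotProduct_smul, hu1, smul_zero]
  · unfold sq at *
    have h2 : ∀ i, (√((∑ i, x i ^ 2) / ∑ i, u i ^ 2) • u) i ^ 2 =
        ((∑ i, x i ^ 2) / ∑ i, u i ^ 2) * u i ^ 2 := by
      intro i
      rw [Pi.smul_apply, smul_eq_mul, mul_pow, Real.sq_sqrt (by positivity)]
    simp only [h2]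
    rw [← Finset.mul_sum]
    field_simp

private theorem M3_sq_dot {n : ℕ} (x : Fin n → ℝ) : sq x = dotProduct x x := by
  unfold sq dotProduct
  exact Finset.sum_congr rfl fun i _ => by ring

private theorem M3_comb {n : ℕ} (x v : Fin n → ℝ) (a b : ℝ) (h : dotProduct x v = 0) :
    sq (a • x + b • v) = a ^ 2 * sq x + b ^ 2 * sq v := by
  have h' : dotProduct v x = 0 := by rw [dotProduct_comm]; exact h
  rw [M3_sq_dot, M3_sq_dot, M3_sq_dot]
  simp only [dotProduct_add, add_dotProduct, dotProduct_smul, smul_dotProduct, smul_eq_mul, h, h']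
  ring

private theorem M3_angle {n : ℕ} (hn : 2 ≤ n) {x y : Fin n → ℝ} (hx : 0 < sq x)
    (h : sq x = sq y) : ∃ (v : Fin n → ℝ) (θ : ℝ), dotProduct x v = 0 ∧ sq v = sq x ∧ 0 ≤ θ ∧
      θ ≤ Real.pi ∧ y = Real.cos θ • x + Real.sin θ • v := by
  set c : ℝ := dotProduct x y / sq x with hc
  set w : Fin n → ℝ := y - c • x with hw
  have hxw : dotProduct x w = 0 := by
    rw [hw, dotProduct_sub, dotProduct_smul, smul_eq_mul, ← M3_sq_dot, hc]
    field_simp
    ring
  have hyw : y = c • x + w := by rw [hw]; abel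
  have hsq : sq y = c ^ 2 * sq x + sq w := by
    have h1 := M3_comb x w c 1 hxw
    rw [one_smul, ← hyw] at h1
    rw [h1]; ring
  have hw0 : 0 ≤ sq w := Finset.sum_nonneg fun i _ => sq_nonneg _
  have hc2 : c ^ 2 ≤ 1 := by
    by_contra hcon
    push Not at hcon
    have : sq x < c ^ 2 * sq x := by nlinarith
    linarith
  have hc1 : -1 ≤ c ∧ c ≤ 1 := abs_le.1 (by
    rw [← sq_le_one_iff_abs_le_one]; exact hc2)
  set θ := Real.arccos c with hθ
  have hcos : Real.cos θ = c := Real.cos_arccos hc1.1 hc1.2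
  have hsin : Real.sin θ ^ 2 = 1 - c ^ 2 := by
    have := Real.sin_sq_add_cos_sq θ
    rw [hcos] at this
    linarith
  have hws : sq w = Real.sin θ ^ 2 * sq x := by
    rw [hsin]; linarith
  by_cases hs : Real.sin θ = 0
  · obtain ⟨v, hv1, hv2⟩ := M3_perp hn x hx
    refine ⟨v, θ, hv1, hv2, Real.arccos_nonneg c, Real.arccos_le_pi c, ?_⟩
    rw [hs, zero_smul, add_zero, hcos]
    have hw00 : sq w = 0 := by rw [hws, hs]; ring
    have : w = 0 := by
      funext i
      unfold sq at hw00
      have h2 := (Finset.sum_eq_zero_iff_of_nonneg (fun i _ => sq_nonneg (w i))).1 hw00 i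
        (Finset.mem_univ _)
      exact pow_eq_zero_iff (two_ne_zero) |>.1 h2
    rw [hyw, this, add_zero]
  · refine ⟨(Real.sin θ)⁻¹ • w, θ, ?_, ?_, Real.arccos_nonneg c, Real.arccos_le_pi c, ?_⟩
    · rw [dotProduct_smul, hxw, smul_zero]
    · have h1 := M3_comb x w 0 (Real.sin θ)⁻¹ hxw
      rw [zero_smul, zero_add] at h1
      rw [h1, hws]
      field_simp
      ring
    · rw [hcos, smul_smul, mul_inv_cancel₀ hs, one_smul]
      exact hyw

theorem arc {n : ℕ} (hn : 2 ≤ n) {F : ℝ → ℝ} (hpos : ∀ s, 0 < F s)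
    {x y : Fin n → ℝ} (h : sq x = sq y) :
    gdist (conf F) x y ≤ ENNReal.ofReal (Real.pi * √(sq x * F (sq x))) := by
  have hx0 : 0 ≤ sq x := Finset.sum_nonneg fun i _ => sq_nonneg _
  rcases hx0.lt_or_eq with hx | hx
  · obtain ⟨v, θ, hv1, hv2, hθ0, hθ1, hy⟩ := M3_angle hn hx h
    set γ : ℝ → Fin n → ℝ := fun t => Real.cos (θ * t) • x + Real.sin (θ * t) • v with hγ
    have hsq : ∀ t, sq (γ t) = sq x := by
      intro t
      rw [hγ]
      simp only
      rw [M3_comb x v _ _ hv1, hv2]
      have := Real.sin_sq_add_cos_sq (θ * t)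
      nlinarith
    have hder : ∀ t, deriv γ t = (-(Real.sin (θ * t) * θ)) • x + (Real.cos (θ * t) * θ) • v := by
      intro t
      have h0 : HasDerivAt (fun t : ℝ => θ * t) θ t := by
        have := (hasDerivAt_id t).const_mul θ
        rw [mul_one] at this
        exact this
      have h1 : HasDerivAt (fun t : ℝ => Real.cos (θ * t)) (-(Real.sin (θ * t) * θ)) t := by
        have := h0.cos
        rw [neg_mul] at this
        exact this
      have h2 : HasDerivAt (fun t : ℝ => Real.sin (θ * t)) (Real.cos (θ * t) * θ) t := h0.sin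
      exact ((h1.smul_const x).add (h2.smul_const v)).deriv
    have hlen : len (conf F) γ = θ * √(sq x * F (sq x)) := by
      unfold len
      have h1 : ∀ t : ℝ, √(dotProduct (deriv γ t) ((conf F (γ t)).mulVec (deriv γ t))) =
          θ * √(sq x * F (sq x)) := by
        intro t
        have h2 : dotProduct (deriv γ t) ((conf F (γ t)).mulVec (deriv γ t)) =
            θ ^ 2 * (sq x * F (sq x)) := by
          unfold conf
          have h3 : ∑ i, γ t i ^ 2 = sq x := hsq t
          rw [h3, Matrix.smul_mulVec, Matrix.one_mulVec, dotProduct_smul, smul_eq_mul,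
            ← M3_sq_dot, hder t, M3_comb x v _ _ hv1, hv2]
          have := Real.sin_sq_add_cos_sq (θ * t)
          have h4 : (-(Real.sin (θ * t) * θ)) ^ 2 * sq x + (Real.cos (θ * t) * θ) ^ 2 * sq x =
              (Real.sin (θ * t) ^ 2 + Real.cos (θ * t) ^ 2) * (θ ^ 2 * sq x) := by ring
          rw [h4, this]
          ring
        rw [h2, Real.sqrt_mul (sq_nonneg θ), Real.sqrt_sq hθ0]
      simp only [h1]
      rw [intervalIntegral.integral_const]
      simp
    have hle : gdist (conf F) x y ≤ ENNReal.ofReal (len (conf F) γ) := by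
      unfold gdist
      refine iInf₂_le γ ?_
      refine ⟨?_, ?_, ?_⟩
      · rw [hγ]
        fun_prop
      · simp [hγ]
      · rw [hγ]
        simp only [mul_one]
        exact hy.symm
    refine hle.trans (ENNReal.ofReal_le_ofReal ?_)
    rw [hlen]
    exact mul_le_mul_of_nonneg_right hθ1 (Real.sqrt_nonneg _)
  · have hxz : x = 0 := by
      funext i
      have h1 : ∑ i, x i ^ 2 = 0 := hx.symm
      have h2 := (Finset.sum_eq_zero_iff_of_nonneg (fun i _ => sq_nonneg (x i))).1 h1 i
        (Finset.mem_univ _)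
      exact pow_eq_zero_iff (two_ne_zero) |>.1 h2
    have hyz : y = 0 := by
      funext i
      have h1 : ∑ i, y i ^ 2 = 0 := by
        have : sq y = 0 := by rw [← h, ← hx]
        exact this
      have h2 := (Finset.sum_eq_zero_iff_of_nonneg (fun i _ => sq_nonneg (y i))).1 h1 i
        (Finset.mem_univ _)
      exact pow_eq_zero_iff (two_ne_zero) |>.1 h2
    rw [hxz, hyz]
    have hle : gdist (conf F) (0 : Fin n → ℝ) 0 ≤
        ENNReal.ofReal (len (conf F) (fun _ => (0 : Fin n → ℝ))) := by
      unfold gdist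
      refine iInf₂_le (fun _ => (0 : Fin n → ℝ)) ?_
      exact ⟨contDiff_const, rfl, rfl⟩
    refine hle.trans ?_
    have : len (conf F) (fun _ => (0 : Fin n → ℝ)) = 0 := by
      unfold len
      simp
    rw [this, ENNReal.ofReal_zero]
    exact bot_le

end Vale.Agent.P225
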