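import Vale.Agent.Lib.P210R.M1
import Vale.Agent.Lib.P210R.M2
import Vale.Agent.Lib.P210R.M3

/-!
# P210R: width bound for rotationally symmetric metrics of positive scalar curvature
-/

namespace Vale.Agent.P225

open Set MeasureTheory Filter Vale.Agent.P222
open scoped Topology ContDiff ENNReal

theorem main210 {n : ℕ} (hn : 3 ≤ n) {F : ℝ → ℝ} (hF : ContDiff ℝ ∞ F) (hpos : ∀ s, 0 < F s)
    (hscal : ∀ x : Fin n → ℝ, 1 ≤ scal (conf F) x) :
    ∃ f : (Fin n → ℝ) → ℝ, Continuous f ∧ ∀ x y, f x = f y →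
      gdist (conf F) x y ≤ ENNReal.ofReal (Real.pi * √((n : ℝ) * (n - 1))) := by
  have hode := ode210 hn hF hpos (fun s hs => by
    obtain ⟨x, hx⟩ : ∃ x : Fin n → ℝ, sq x = s := by
      refine ⟨Pi.single ⟨0, by omega⟩ (Real.sqrt s), ?_⟩
      unfold sq
      rw [Finset.sum_eq_single (⟨0, by omega⟩ : Fin n)]
      · rw [Pi.single_eq_same, Real.sq_sqrt hs]
      · intro k _ hk
        rw [Pi.single_eq_of_ne hk]
        norm_num
      · intro h
        exact absurd (Finset.mem_univ _) h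
    have h1 := scal_conf hF hpos x
    have h2 := hscal x
    rw [hx] at h1
    rw [← h1]
    have h3 := hpos s
    nlinarith)
  refine ⟨sq, ?_, fun x y hxy => ?_⟩
  · unfold sq
    fun_prop
  · refine (arc (by omega) hpos hxy).trans (ENNReal.ofReal_le_ofReal ?_)
    refine mul_le_mul_of_nonneg_left (Real.sqrt_le_sqrt ?_) Real.pi_pos.le
    exact hode _ (Finset.sum_nonneg fun i _ => sq_nonneg _)

end Vale.Agent.P225
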