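import Vale.Agent.Lib.P225R.Stmt

/-!
# P210R: scalar curvature
-/

namespace Vale.Agent.P225

open Set MeasureTheory Filter Vale.Agent.P222
open scoped Topology ContDiff ENNReal

/-- The scalar curvature of the metric `g`: `Scal_g = g^{ij} Ric_{ij}`. -/
noncomputable def scal {n : ℕ} (g : (Fin n → ℝ) → Matrix (Fin n) (Fin n) ℝ) (x : Fin n → ℝ) : ℝ :=
  ∑ i, ∑ j, (g x)⁻¹ i j * ric g x i j

end Vale.Agent.P225
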